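import Vale.Agent.P088.R2.H856.O.HfP
import Vale.Agent.P088.R2.H856.O.H5
import Vale.Agent.P088.R2.H867.Z.Ho2

/-!
# The fifth cost for the data package
-/

open Set Filter MeasureTheory
open scoped ContDiff Topology

noncomputable section

namespace Vale.Agent.P088.R2.H856.O

open Vale.Agent.P088.LR Vale.Agent.P088.HY Vale.Agent.P088.R2.H961.GW
open Vale.Agent.P088.R2.H31.EP Vale.Agent.P088.R2.H932.EP
open Vale.Agent.P088.R2.H464.Cu (mid dif rq)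
open Vale.Agent.P088.R2.H86.Z (El)
open Vale.Agent.P088.R2.H867.Z (gB eB fB HO')
open Vale.Agent.P088.R2.H676.F (Mxf F5t)

variable {n : ℕ} {q : Cst} {d : Pk n} {z : VV n}

/-- The letters of helper867. -/
theorem gB_eq (q : Cst) (d : Pk n) : gB (d.E q) (rq (gi d.s₁)) = hB q d := rfl

theorem fB_eq (q : Cst) (d : Pk n) : fB (d.E q) (rq (gi d.s₁)) (d.N q) = wB q d := rfl

theorem nD_two {σ τ : Sl (VV n) (Fin n)} {χ ψ : VV n → ℝ}
    (h1 : ∑ i, σ.D i χ z ^ 2 ≤ ψ z ^ 2) (h2 : ∑ i, τ.D i χ z ^ 2 ≤ ψ z ^ 2) :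
    nD σ τ χ z ≤ 2 * ψ z ^ 2 := by
  unfold nD; linarith

theorem nDK_nn (σ τ : Sl (VV n) (Fin n)) (χ : VV n → ℝ) (z : VV n) : 0 ≤ nDK σ τ χ z :=
  Finset.sum_nonneg fun _ _ => Finset.sum_nonneg fun _ _ => sq_nonneg _

/-- The conditions on the cut-off. -/
theorem p3_of {s₁ s₂ : MF n} {W χ ψ om w e h f₀ Z Z' d hi : VV n → ℝ} {ε t : ℝ}
    (H : HO' s₁ s₂ W χ ψ om w hi e h f₀ Z Z' z)
    (el₁ : El (slx (fun _ => (1 : ℝ)) s₁) z) (hε : 0 ≤ ε) (hd0 : 0 ≤ d z) (hdt : d z ≤ t)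
    (hs : 3 * ε + 4 * t ≤ 1) (h0 : 0 ≤ hi z) (gw : hi z ≤ w z) (gf : hi z ≤ f₀ z) :
    ε * (hi z * nK (slx (fun _ => (1 : ℝ)) s₁) (sly (fun _ => (1 : ℝ)) s₂) χ z +
        nD (slx (fun _ => (1 : ℝ)) s₁) (sly (fun _ => (1 : ℝ)) s₂) χ z) +
      4 * (d z * nDK (slx (fun _ => (1 : ℝ)) s₁) (sly (fun _ => (1 : ℝ)) s₂) χ z) ≤
      Z z * f₀ z := by
  set σ := slx (fun _ => (1 : ℝ)) s₁
  set τ := sly (fun _ => (1 : ℝ)) s₂
  have hZf : 0 ≤ Z z * f₀ z := mul_nonneg H.Z0 H.f0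
  have k1 : nK σ τ χ z ≤ om z ^ 2 := H.dd
  have k2 : nD σ τ χ z ≤ 2 * ψ z ^ 2 := nD_two H.d1 H.d2
  have k3 : nDK σ τ χ z ≤ Z z * f₀ z := H.nd
  have hΓ : 0 ≤ σ.Γ om om z := by
    have := el₁.lo fun i => σ.D i om z
    have h2 : 0 ≤ ∑ i, (σ.D i om z) ^ 2 := Finset.sum_nonneg fun _ _ => sq_nonneg _
    have h3 : σ.Γ om om z = ∑ i, ∑ j, σ.s i j z * σ.D i om z * σ.D j om z := by
      rw [Sl.Γ]
    rw [h3]; linarith
  have hF : 0 ≤ 4 * om z ^ 2 * σ.F W z := mul_nonneg (by positivity) (el₁.F0 W)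
  have k4 : w z * om z ^ 2 ≤ Z z * f₀ z := by
    have : w z * om z ^ 2 + 4 * σ.Γ om om z + 4 * om z ^ 2 * σ.F W z ≤ Z z * f₀ z := H.c1
    linarith
  have k5 : hi z * nK σ τ χ z ≤ Z z * f₀ z := by
    have h1 := mul_le_mul_of_nonneg_left k1 h0
    have h2 := mul_le_mul_of_nonneg_right gw (sq_nonneg (om z))
    linarith
  have k6 : ψ z ^ 2 ≤ Z z * f₀ z := H.gg.trans (mul_le_mul_of_nonneg_left gf H.Z0)
  have k7 : ε * (hi z * nK σ τ χ z + nD σ τ χ z) ≤ ε * (3 * (Z z * f₀ z)) :=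
    mul_le_mul_of_nonneg_left (by linarith) hε
  have k8 : d z * nDK σ τ χ z ≤ t * (Z z * f₀ z) :=
    mul_le_mul hdt k3 (nDK_nn _ _ _ _) (hd0.trans hdt)
  have k9 := mul_le_mul_of_nonneg_right hs hZf
  nlinarith

/-! ## Smoothness of the letters -/

section sm

variable (S : LitSm q d) (h : PkOk q d)

include S in
theorem E_sm : ContDiff ℝ ∞ (d.E q) := S.u.exp

include S in
theorem m_sm : ContDiff ℝ ∞ (d.m q) := (E_sm S).mul (contDiff_const.mul S.rq)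

include S h in
theorem N_sm : ContDiff ℝ ∞ (d.N q) := (contDiff_infty_iff_deriv.1 h.Φs).2.comp S.u

include S in
theorem m_nn (z : VV n) : 0 ≤ d.m q z :=
  mul_nonneg (Real.exp_pos _).le (mul_nonneg zero_le_two (S.rq0 z))

include S in
theorem m_ne (z : VV n) : 1 + d.m q z ≠ 0 := by
  have := m_nn S z
  positivity

include S in
theorem dB_sm (η : ℝ) : ContDiff ℝ ∞ (dB q d η) :=
  contDiff_const.div ((contDiff_const.add (m_sm S)).pow 2) fun z => pow_ne_zero _ (m_ne S z)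

include S in
theorem GB_sm (η : ℝ) : ContDiff ℝ ∞ (GB q d η) :=
  contDiff_const.mul ((E_sm S).div ((contDiff_const.add (m_sm S)).pow 3)
    fun z => pow_ne_zero _ (m_ne S z))

include S in
theorem MB_sm : ContDiff ℝ ∞ (MB q d) :=
  contDiff_const.mul ((E_sm S).mul (contDiff_const.add (m_sm S)))

include S in
theorem hB_sm : ContDiff ℝ ∞ (hB q d) :=
  (E_sm S).div (contDiff_const.add (m_sm S)) fun z => m_ne S z

include S h in
theorem wB_sm : ContDiff ℝ ∞ (wB q d) :=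
  ((E_sm S).mul ((((N_sm S h).add contDiff_const).add (m_sm S)).pow 2)).div
    (contDiff_const.add (m_sm S)) fun z => m_ne S z

include S in
theorem hB_nn (z : VV n) : 0 ≤ hB q d z := by
  have := m_nn S z
  have := Real.exp_pos (d.u q z)
  unfold hB Pk.E
  positivity

include S in
theorem wB_nn (z : VV n) : 0 ≤ wB q d z := by
  have := m_nn S z
  have := Real.exp_pos (d.u q z)
  unfold wB Pk.E
  positivity

include S in
theorem dB_nn (η : ℝ) (z : VV n) : 0 ≤ dB q d η z := by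
  have := m_nn S z
  unfold dB
  positivity

include S in
theorem dB_le (η : ℝ) (z : VV n) : dB q d η z ≤ η ^ 2 := by
  have := m_nn S z
  unfold dB
  exact div_le_self (sq_nonneg η) (one_le_pow₀ (by linarith))

include S in
theorem hB_le_w (z : VV n) : hB q d z ≤ H867.Z.wB (d.E q) (rq (gi d.s₁)) z := by
  have h0 := m_nn S z
  have h1 := Real.exp_pos (d.u q z)
  show d.E q z / (1 + d.m q z) ≤ d.E q z * (1 + d.m q z)
  have hE : 0 ≤ d.E q z := h1.le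
  exact (div_le_self hE (by linarith)).trans (le_mul_of_one_le_right hE (by linarith))

include S in
theorem hB_le_f (hN : 0 ≤ d.N q z) : hB q d z ≤ wB q d z := by
  have h0 := m_nn S z
  have hE : 0 ≤ d.E q z := (Real.exp_pos (d.u q z)).le
  unfold hB wB
  exact div_le_div_of_nonneg_right (le_mul_of_one_le_right hE (one_le_pow₀ (by linarith)))
    (by linarith)

end sm

/-- **(H5)** for the data package: the letters `g = hi = E / (1 + m)`, `e = E²`,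
`f₀ = wc = E (N + 1 + m)² / (1 + m)`, `d = η² / (1 + m)²`. -/
theorem h5_pk (Q : Qc n q) (h : PkOk q d) (S : LitSm q d) (sW : ContDiff ℝ ∞ (d.W q))
    (ok : d.sx.Ok univ fun _ => 1) (ot : d.sy.Ok univ fun _ => 1) (el₁ : ∀ z, El d.sx z)
    (el₂ : ∀ z, El d.sy z) {Ω : Set (VV n)} (hΩ : IsOpen Ω)
    {χ ψ om hh Z Z' : VV n → ℝ} (hS : tsupport χ ⊆ Ω) (P : ∀ z ∈ Ω, Pz q d z)
    (hN : ∀ z ∈ Ω, 0 ≤ d.N q z) (hχ : Sm univ χ) (hψ : Sm univ ψ) (hom : Sm univ om)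
    (hZ : Sm univ Z) (hZ' : Sm univ Z')
    (H : ∀ z, HO' d.s₁ d.s₂ (d.W q) χ ψ om (H867.Z.wB (d.E q) (rq (gi d.s₁)))
      (gB (d.E q) (rq (gi d.s₁))) (eB (d.E q)) hh (fB (d.E q) (rq (gi d.s₁)) (d.N q)) Z Z' z)
    (HH : ∀ z, Vale.Agent.P088.R2.H516.O.HO d.sx d.sy (fun _ => 0) (fun _ => 0) (d.W q) χ ψ om
      (H867.Z.wB (d.E q) (rq (gi d.s₁))) (gB (d.E q) (rq (gi d.s₁))) (eB (d.E q)) hh
      (fB (d.E q) (rq (gi d.s₁)) (d.N q)) Z Z' z)
    {ε η c₀ C : ℝ} (hη : cH n * η ^ 2 ≤ ε) (h1 : 11536 * η ^ 2 ≤ 1) (h2 : 3 * ε + 4 * η ^ 2 ≤ 1)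
    (hC : 0 ≤ C) (hCε : C * ε ≤ c₀ / 2) :
    Vale.Agent.P088.R2.H516.O.H5 d.sx d.sy univ (fun _ => 1) (fun _ => 0) (fun _ => 0) (d.W q) χ
      (gB (d.E q) (rq (gi d.s₁))) (eB (d.E q)) (fB (d.E q) (rq (gi d.s₁)) (d.N q))
      (fB (d.E q) (rq (gi d.s₁)) (d.N q)) Z Z'
      (Mxf d.sx d.sy univ (fun _ => 1) (d.W q) (gB (d.E q) (rq (gi d.s₁))))
      (F5t d.sx d.sy univ (fun _ => 1) (d.W q) (dB q d η)) c₀ C (85 * C) := by
  have hε : 0 ≤ ε := le_trans (mul_nonneg cH_pos.le (sq_nonneg η)) hη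
  have zs : Sm univ fun _ : VV n => (0 : ℝ) := contDiffOn_const
  refine h5 (Ω := Ω) (Gd := GB q d η) (M := MB q d) (V := fun _ => 0) (δ := 1) (ε := ε)
    (w := H867.Z.wB (d.E q) (rq (gi d.s₁)))
    (flt_sx d) (flt_sy d) hΩ (subset_univ _) (fun z hz => hS hz.2) ok ot (fun z _ => el₁ z)
    (fun z _ => el₂ z) sW.contDiffOn zs zs hχ (dB_sm S η).contDiffOn (GB_sm S η).contDiffOn
    (MB_sm S).contDiffOn contDiffOn_const (hB_sm S).contDiffOn (wB_sm S h).contDiffOn hψ hom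
    ((E_sm S).mul (contDiff_const.add (m_sm S))).contDiffOn (hB_sm S).contDiffOn
    ((E_sm S).pow 2).contDiffOn (wB_sm S h).contDiffOn hZ hZ' (fun z _ => HH z)
    (fun z hz => hf_pk Q h (P z hz) hη) (fun z _ => hB_nn S z) (fun z _ => wB_nn S z)
    (fun z _ => ?_) (fun z _ => (H z).dd) (fun z hz => ?_) hC hε hCε
  · exact (mul_le_mul_of_nonneg_left (dB_le S η z) (by norm_num)).trans h1
  · exact p3_of (H z) (el₁ z) hε (dB_nn S η z) (dB_le S η z) h2 (hB_nn S z) (hB_le_w S z)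
      (hB_le_f S (hN z hz))

end Vale.Agent.P088.R2.H856.O
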