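import Vale.Agent.P088.R2.H856.O.H5q
import Vale.Agent.P088.R2.H238.C.Par

/-!
# Zone B1: the region of the core satisfies the conditions of the fifth cost
-/

open Set Filter MeasureTheory
open scoped ContDiff Topology

noncomputable section

namespace Vale.Agent.P088.R2.H856.O

open Vale.Agent.P088.LR Vale.Agent.P088.HY Vale.Agent.P088.R2.H961.GW
open Vale.Agent.P088.R2.H31.EP Vale.Agent.P088.R2.H932.EP
open Vale.Agent.P088.R2.H238.C (Th Gz Gp)

variable {n : ℕ} {q : Cst} {d : Pk n} {z : VV n}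

theorem M_two (T : Th q) : 2 ≤ q.M₀ := by
  by_contra hc
  have h1 : q.M₀ < 2 := not_le.1 hc
  have h2 : q.M₀ ^ (6 / 100 : ℝ) ≤ (2 : ℝ) ^ (6 / 100 : ℝ) :=
    Real.rpow_le_rpow (by linarith [T.M1]) h1.le (by norm_num)
  have h3 : (2 : ℝ) ^ (6 / 100 : ℝ) ≤ (2 : ℝ) ^ (1 : ℝ) :=
    Real.rpow_le_rpow_of_exponent_le (by norm_num) (by norm_num)
  rw [Real.rpow_one] at h3
  linarith [T.mA]

theorem Gz.nz (T : Th q) (hz : z ∈ Gz q d) : Nz q d z where
  r := hz.2.2.2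
  u := by
    have h1 := hz.1.2
    have h2 := hz.2.1.2
    unfold Pk.u0
    linarith
  l1 := by linarith [hz.1.2, T.R0]
  l2 := by linarith [hz.2.1.2, T.R0]

theorem N_two (h : PkOk q d) (T : Th q) (z : VV n) : 2 ≤ d.N q z :=
  (M_two T).trans (H238.C.N_ge h _)

/-- **The facts.** -/
theorem ob_facts (h : PkOk q d) (T : Th q) (hz : z ∈ Gz q d)
    (hN : d.N q z ^ (13 / 5 : ℝ) < 2 * d.E q z) :
    Nz q d z ∧ 1 ≤ d.E q z ∧ d.N q z ^ 2 ≤ 2 * d.E q z ∧ 0 ≤ d.N q z := by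
  have h2 := N_two h T z
  have h1 : d.N q z ^ 2 ≤ d.N q z ^ (13 / 5 : ℝ) := by
    rw [← Real.rpow_natCast]
    exact Real.rpow_le_rpow_of_exponent_le (by linarith) (by norm_num)
  have h3 : (2 : ℝ) ^ 2 ≤ d.N q z ^ 2 := pow_le_pow_left₀ (by norm_num) h2 2
  exact ⟨Gz.nz T hz, by linarith, by linarith, by linarith⟩

end Vale.Agent.P088.R2.H856.O
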