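import Vale.Agent.P088.R2.H856.O.H5p
import Vale.Agent.P088.R2.H932.EP.Wq
import Vale.Agent.P088.R2.H867.Z.HoL

/-!
# The fifth cost for the data package: the choice of the small number
-/

open Set Filter MeasureTheory
open scoped ContDiff Topology

noncomputable section

namespace Vale.Agent.P088.R2.H856.O

open Vale.Agent.P088.LR Vale.Agent.P088.HY Vale.Agent.P088.R2.H961.GW
open Vale.Agent.P088.R2.H31.EP Vale.Agent.P088.R2.H932.EP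
open Vale.Agent.P088.R2.H464.Cu (mid dif rq)
open Vale.Agent.P088.R2.H86.Z (El)
open Vale.Agent.P088.R2.H867.Z (HO')
open Vale.Agent.P088.R2.H676.F (Mxf F5t)

variable {n : ℕ} {q : Cst} {d : Pk n} {z : VV n}

/-- The conditions at a point from the neighbourhood of the diagonal and two numbers. -/
theorem Pz.of_nz (h : Nz q d z) (hE : 1 ≤ d.E q z) (hN : d.N q z ^ 2 ≤ 2 * d.E q z) :
    Pz q d z where
  r := h.r
  l1 := h.l1
  l2 := h.l2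
  u0 := h.u
  E1 := hE
  N2 := hN

theorem eta_ex (n : ℕ) {c₀ C : ℝ} (hc : 0 < c₀) (hC : 0 ≤ C) :
    ∃ ε η : ℝ, 0 < η ∧ η ≤ 1 / 200 ∧ cH n * η ^ 2 ≤ ε ∧ 11536 * η ^ 2 ≤ 1 ∧
      3 * ε + 4 * η ^ 2 ≤ 1 ∧ C * ε ≤ c₀ / 2 := by
  have hH := cH_pos (n := n)
  have e0 : 0 < min (1 / 6) (c₀ / (2 * (C + 1))) := by positivity
  refine ⟨min (1 / 6) (c₀ / (2 * (C + 1))),
    min (1 / 200) (min (1 / 6) (c₀ / (2 * (C + 1))) / cH n), by positivity, min_le_left _ _,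
    ?_, ?_, ?_, ?_⟩
  all_goals
    have a1 : min (1 / 200 : ℝ) (min (1 / 6) (c₀ / (2 * (C + 1))) / cH n) ≤ 1 / 200 :=
      min_le_left _ _
    have a2 : min (1 / 200 : ℝ) (min (1 / 6) (c₀ / (2 * (C + 1))) / cH n) ≤
      min (1 / 6) (c₀ / (2 * (C + 1))) / cH n := min_le_right _ _
    have a0 : 0 < min (1 / 200 : ℝ) (min (1 / 6) (c₀ / (2 * (C + 1))) / cH n) := by positivity
    have b1 : min (1 / 6) (c₀ / (2 * (C + 1))) ≤ 1 / 6 := min_le_left _ _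
    have b2 : min (1 / 6) (c₀ / (2 * (C + 1))) ≤ c₀ / (2 * (C + 1)) := min_le_right _ _
    generalize min (1 / 200 : ℝ) (min (1 / 6) (c₀ / (2 * (C + 1))) / cH n) = η at *
    generalize min (1 / 6) (c₀ / (2 * (C + 1))) = ε at *
  · rw [le_div_iff₀ hH] at a2
    nlinarith
  · nlinarith
  · nlinarith
  · rw [le_div_iff₀ (by positivity)] at b2
    nlinarith

theorem dB_eq (q : Cst) (d : Pk n) (η : ℝ) :
    (fun z => (η / (1 + d.m q z)) ^ 2) = dB q d η := by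
  funext z
  rw [dB, div_pow]

/-- **(H5)** for every sufficiently small number `η`, chosen before the package. -/
theorem h5_ex (n : ℕ) {c₀ C : ℝ} (hc : 0 < c₀) (hC : 0 ≤ C) :
    ∃ η₀ : ℝ, 0 < η₀ ∧ η₀ ≤ 1 / 200 ∧ ∀ η : ℝ, 0 ≤ η → η ≤ η₀ →
      ∀ (q : Cst) (d : Pk n), Qc n q → PkOk q d → LitSm q d →
      ContDiff ℝ ∞ (d.W q) → (d.sx.Ok univ fun _ => 1) → (d.sy.Ok univ fun _ => 1) →
      (∀ z, El d.sx z) → (∀ z, El d.sy z) → ∀ (Ω : Set (VV n)) (χ ψ om Z Z' : VV n → ℝ),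
      IsOpen Ω → tsupport χ ⊆ Ω → (∀ z ∈ Ω, Nz q d z) → (∀ z ∈ Ω, 1 ≤ d.E q z) →
      (∀ z ∈ Ω, d.N q z ^ 2 ≤ 2 * d.E q z) → (∀ z ∈ Ω, 0 ≤ d.N q z) → Sm univ χ → Sm univ ψ →
      Sm univ om → Sm univ Z → Sm univ Z' →
      (∀ z, HO' d.s₁ d.s₂ (d.W q) χ ψ om (d.wB q) (d.gB q) (d.eB q) (d.hB q) (d.fB q) Z Z' z) →
      (∀ z, Vale.Agent.P088.R2.H516.O.HO d.sx d.sy (fun _ => 0) (fun _ => 0) (d.W q) χ ψ om
        (d.wB q) (d.gB q) (d.eB q) (d.hB q) (d.fB q) Z Z' z) →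
      Vale.Agent.P088.R2.H516.O.H5 d.sx d.sy univ (fun _ => 1) (fun _ => 0) (fun _ => 0) (d.W q)
        χ (d.gB q) (d.eB q) (d.fB q) (d.fB q) Z Z'
        (Mxf d.sx d.sy univ (fun _ => 1) (d.W q) (d.gB q))
        (F5t d.sx d.sy univ (fun _ => 1) (d.W q) (dB q d η)) c₀ C (85 * C) := by
  obtain ⟨ε, η₀, h0, h1, h2, h3, h4, h5⟩ := eta_ex n hc hC
  refine ⟨η₀, h0, h1, fun η e0 e1 q d Q h S sW ok ot el₁ el₂ Ω χ ψ om Z Z' hΩ hS P hE hN2 hN hχ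
    hψ hom hZ hZ' H HH => ?_⟩
  have e2 : η ^ 2 ≤ η₀ ^ 2 := pow_le_pow_left₀ e0 e1 2
  have e3 := mul_le_mul_of_nonneg_left e2 (cH_pos (n := n)).le
  exact h5_pk Q h S sW ok ot el₁ el₂ hΩ hS (fun z hz => Pz.of_nz (P z hz) (hE z hz) (hN2 z hz))
    hN hχ hψ hom hZ hZ' H HH (e3.trans h2) (by linarith) (by linarith) hC h5

end Vale.Agent.P088.R2.H856.O
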