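import Vale.Agent.P088.R2.H932.EP.Pk4
import Vale.Agent.P088.R2.H606.EP.Prf
import Vale.Agent.P088.R2.H856.O.HfG
import Vale.Agent.P088.R2.H856.O.W3c

/-!
# The pointwise hypotheses of the fifth cost for the data package
-/

open Set Filter MeasureTheory
open scoped ContDiff Topology

noncomputable section

namespace Vale.Agent.P088.R2.H856.O

open Vale.Agent.P088.LR Vale.Agent.P088.HY Vale.Agent.P088.R2.H961.GW
open Vale.Agent.P088.R2.H31.EP Vale.Agent.P088.R2.H932.EP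
open Vale.Agent.P088.R2.H464.Cu (mid dif rq)

variable {n : ℕ} {q : Cst} {d : Pk n} {z : VV n} {f : VV n → ℝ}

/-! ## Directions -/

theorem ex_ep (i : Fin n) :
    ((Pi.single i 1, 0) : VV n) = (1 / 2 : ℝ) • ep (Sum.inl i) + ep (Sum.inr i) := by
  refine Prod.ext ?_ ?_ <;> funext j <;> by_cases h : j = i
  · subst h; simp [ep]; norm_num
  · simp [ep, h]
  · subst h; simp [ep]
  · simp [ep, h]

theorem ey_ep (i : Fin n) :
    ((0, Pi.single i 1) : VV n) = (1 / 2 : ℝ) • ep (Sum.inl i) - ep (Sum.inr i) := by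
  refine Prod.ext ?_ ?_ <;> funext j <;> by_cases h : j = i
  · subst h; simp [ep]
  · simp [ep, h]
  · subst h; simp [ep]; norm_num
  · simp [ep, h]

/-- The coordinate directions. -/
def cv (i : Fin n) : Bool → VV n
  | true => (Pi.single i 1, 0)
  | false => (0, Pi.single i 1)

theorem fd_cv {A B : ℝ} (h1 : ∀ i, |fderiv ℝ f z (ep (Sum.inl i))| ≤ A)
    (h2 : ∀ i, |fderiv ℝ f z (ep (Sum.inr i))| ≤ B) (i : Fin n) (b : Bool) :
    |fderiv ℝ f z (cv i b)| ≤ 1 / 2 * A + B := by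
  have a1 := abs_le.1 (h1 i)
  have a2 := abs_le.1 (h2 i)
  rw [abs_le]
  cases b
  · rw [cv, ey_ep, map_sub, map_smul, smul_eq_mul]
    constructor <;> linarith
  · rw [cv, ex_ep, map_add, map_smul, smul_eq_mul]
    constructor <;> linarith

theorem flt_sx (d : Pk n) : Flt d.sx where
  r _ := rfl
  k i z := by simp [Pk.sx, slx, pd]

theorem flt_sy (d : Pk n) : Flt d.sy where
  r _ := rfl
  k i z := by simp [Pk.sy, sly, pd]

theorem sx_D (d : Pk n) (i : Fin n) (f : VV n → ℝ) (z : VV n) :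
    d.sx.D i f z = fderiv ℝ f z (cv i true) := by
  rw [(flt_sx d).D]; rfl

theorem sy_D (d : Pk n) (i : Fin n) (f : VV n → ℝ) (z : VV n) :
    d.sy.D i f z = fderiv ℝ f z (cv i false) := by
  rw [(flt_sy d).D]; rfl

theorem nD_le {A : ℝ} (h : ∀ i b, (fderiv ℝ f z (cv i b)) ^ 2 ≤ A) :
    nD d.sx d.sy f z ≤ 2 * n * A := by
  rw [nD]
  have h1 := Finset.sum_le_card_nsmul Finset.univ (fun i => d.sx.D i f z ^ 2) A fun i _ => by
    rw [sx_D]; exact h i true
  have h2 := Finset.sum_le_card_nsmul Finset.univ (fun i => d.sy.D i f z ^ 2) A fun i _ => by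
    rw [sy_D]; exact h i false
  rw [Finset.card_univ, Fintype.card_fin, nsmul_eq_mul] at h1 h2
  linarith

/-! ## First derivatives -/

section cd

variable {D : ℝ} {O : Set (V n)} {g : MF n} {l : V n → ℝ} {μ : ℝ → ℝ} {u : VV n → ℝ}

theorem du_cv (h : Cd D O g l μ u z) (hD : 0 ≤ D) (i : Fin n) (b : Bool) :
    |fderiv ℝ u z (cv i b)| ≤ 2 * cQ n D := by
  have h1 := h.ju1 hD
  have h0 := cQ_nn (n := n) hD
  refine (fd_cv (A := cQ n D) (B := cQ n D) (fun i => ?_) (fun i => ?_) i b).trans (by linarith)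
  · simpa using h1.d1 (Sum.inl i)
  · simpa using h1.d1 (Sum.inr i)

/-- The constant of the derivative of `r²`. -/
def cR (n : ℕ) (D : ℝ) : ℝ := 5 * n ^ 3 * D + 12 * n ^ 2

theorem cR_nn (hD : 0 ≤ D) : 0 ≤ cR n D := by unfold cR; positivity

theorem dr_cv (h : Cd D O g l μ u z) (hD : 0 ≤ D) (h0 : 0 ≤ rq g z) (i : Fin n) (b : Bool) :
    |fderiv ℝ (r2 g) z (cv i b)| ≤ cR n D * √(r2 g z) := by
  have hn : (0 : ℝ) ≤ n := Nat.cast_nonneg n
  have e1 : (n : ℝ) * (1 / (2 * (n + 1))) ≤ 1 / 2 := by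
    rw [mul_one_div, div_le_div_iff₀ (by positivity) (by norm_num)]; linarith
  have e2 : 1 / (2 * ((n : ℝ) + 1)) ≤ 1 := by
    rw [div_le_one (by positivity)]; linarith
  have hq := nd_le h.gn e1 h.hm
  have hq0 := norm_nonneg (dif z)
  have hs0 := Real.sqrt_nonneg (rq g z)
  have hs1 : √(rq g z) ≤ 1 := by rw [Real.sqrt_le_one]; exact h.ρ1
  have hq2 : ‖dif z‖ * ‖dif z‖ ≤ 9 * √(rq g z) := by nlinarith
  have k := fun i => rq_1 h.op h.gn e2 hD h.hm i
  have hd : DifferentiableAt ℝ (rq g) z :=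
    (rq_c2 h.op h.gn h.hm).differentiableAt (by norm_num)
  have e3 : fderiv ℝ (r2 g) z (cv i b) = 2 * fderiv ℝ (rq g) z (cv i b) := by
    have : r2 g = fun z => 2 * rq g z := rfl
    rw [this, fderiv_const_mul hd]
    rfl
  have h3 := fd_cv (f := rq g) (z := z) (A := 9 / 2 * n ^ 3 * D * √(rq g z))
    (B := 6 * n ^ 2 * √(rq g z)) (fun i => (k i).1.trans (by
      have := mul_le_mul_of_nonneg_left hq2 (by positivity : 0 ≤ 1 / 2 * (n : ℝ) ^ 3 * D)
      nlinarith)) (fun i => (k i).2.trans (by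
      have := mul_le_mul_of_nonneg_left hq (by positivity : 0 ≤ 2 * (n : ℝ) ^ 2)
      nlinarith)) i b
  rw [e3, abs_mul, abs_of_pos (by norm_num : (0 : ℝ) < 2)]
  have h4 : √(rq g z) ≤ √(r2 g z) := Real.sqrt_le_sqrt (by
    show rq g z ≤ 2 * rq g z
    linarith)
  have h5 : 0 ≤ cR n D := cR_nn hD
  refine le_trans ?_ (mul_le_mul_of_nonneg_left h4 h5)
  have h6 : 0 ≤ (n : ℝ) ^ 3 * D * √(rq g z) := by positivity
  unfold cR
  nlinarith

end cd

/-! ## The weight and `m` -/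

/-- `cW = A² + B²`. -/
def cAB (n : ℕ) : ℝ := (2 * cQ n cD) ^ 2 + cR n cD ^ 2

theorem cAB_nn : 0 ≤ cAB n := by unfold cAB; positivity

theorem cD_nn : 0 ≤ cD := by linarith [cD_two]

/-- The conditions at a point. -/
structure Pz (q : Cst) (d : Pk n) (z : VV n) : Prop where
  r : d.r2 z < 1
  l1 : d.l z.1 < d.l₀ q + 26 / 10 * q.R
  l2 : d.l z.2 < d.l₀ q + 26 / 10 * q.R
  u0 : d.u0 z ≤ 2 * d.l₀ q + 5 * q.R
  E1 : 1 ≤ d.E q z
  N2 : d.N q z ^ 2 ≤ 2 * d.E q z

/-- The conditions on the constants. -/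
structure Qc (n : ℕ) (q : Cst) : Prop where
  cd : CdC n q
  e0 : 0 < q.e₁
  rd : 1 ≤ (q.r₁ * Real.exp (-1)) ^ 2
  rq : ∀ d : Pk n, PkOk q d → ContDiff ℝ ∞ (rq (gi d.s₁)) ∧ ∀ z, 0 ≤ rq (gi d.s₁) z

theorem dW2 (Q : Qc n q) (h : PkOk q d) (P : Pz q d z) (i : Fin n) (b : Bool) :
    fderiv ℝ (d.W q) z (cv i b) ^ 2 ≤
      900 * cAB n * (d.N q z ^ 2 + d.E q z * d.m q z) := by
  have hcd := Q.cd.cd h P.r P.u0
  have hr0 : 0 ≤ rq (gi d.s₁) z := (Q.rq d h).2 z
  have hr2 : 0 ≤ d.r2 z := mul_nonneg zero_le_two hr0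
  have hu := du_cv hcd cD_nn i b
  have hr := dr_cv hcd cD_nn hr0 i b
  have du : DifferentiableAt ℝ (d.u q) z := (hcd.ju1 cD_nn).sm.differentiableAt (by norm_num)
  have dr : DifferentiableAt ℝ d.r2 z :=
    ((contDiff_const.mul (Q.rq d h).1 : ContDiff ℝ ∞ fun z => 2 * rq (gi d.s₁) z).differentiable
      (by simp)) z
  have hΦ : HasDerivAt d.Φ (deriv d.Φ (d.u q z)) (d.u q z) :=
    (h.Φs.differentiable (by simp) _).hasDerivAt
  have hS := H606.EP.prS_d1 Q.e0 (d.r2 z)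
  have hW : d.W q =ᶠ[𝓝 z] fun y => d.Φ (d.u q y) + Real.exp (d.u q y) * prS q.e₁ (d.r2 y) := by
    have h1 := H404.INF.W_near Q.cd.inf.R0 h P.l1 P.l2
    have h2 : ∀ᶠ w in 𝓝 z, d.r2 w < 1 := dr.continuousAt.eventually_lt continuousAt_const P.r
    filter_upwards [h1, h2] with w hw hw2
    rw [hw.2.2.2.2]
    unfold WW
    have h3 : st (d.F q) (uu (d.F q) d.l (gi d.s₁) w) (r2 (gi d.s₁) w) =
        Real.exp (uu (d.F q) d.l (gi d.s₁) w) * (d.F q).S (r2 (gi d.s₁) w) :=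
      st_in' h.ok (lt_of_lt_of_le hw2 Q.rd)
    rw [h3]
    show d.Φ (d.u q w) + 1 * _ = _
    rw [one_mul]
    rfl
  have hp := H606.EP.pn_ok Q.e0 hr2 P.r
  have key := fd_W (v := cv i b) du dr hΦ hS hW
  rw [key]
  have s1 : √(d.r2 z) ≤ 1 := by rw [Real.sqrt_le_one]; exact P.r.le
  refine (sq_W (t := √(d.r2 z)) (A := 2 * cQ n cD) (B := cR n cD) (Real.sq_sqrt hr2).symm
    (Real.sqrt_nonneg _) s1 hu hr ?_ ?_).trans (le_of_eq rfl)
  · rw [abs_of_nonneg (by linarith [hp.lo])]; exact hp.hi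
  · rw [abs_of_nonneg (by linarith [hp.l1])]; linarith [hp.h1, P.r]

theorem dm2 (Q : Qc n q) (h : PkOk q d) (P : Pz q d z) (i : Fin n) (b : Bool) :
    fderiv ℝ (d.m q) z (cv i b) ^ 2 ≤ 2 * cAB n * (d.E q z * d.m q z) := by
  have hcd := Q.cd.cd h P.r P.u0
  have hr0 : 0 ≤ rq (gi d.s₁) z := (Q.rq d h).2 z
  have hr2 : 0 ≤ d.r2 z := mul_nonneg zero_le_two hr0
  have hu := du_cv hcd cD_nn i b
  have hr := dr_cv hcd cD_nn hr0 i b
  have du : DifferentiableAt ℝ (d.u q) z := (hcd.ju1 cD_nn).sm.differentiableAt (by norm_num)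
  have dr : DifferentiableAt ℝ d.r2 z :=
    ((contDiff_const.mul (Q.rq d h).1 : ContDiff ℝ ∞ fun z => 2 * rq (gi d.s₁) z).differentiable
      (by simp)) z
  have e : d.m q = fun y => Real.exp (d.u q y) * d.r2 y := rfl
  rw [e, fd_m du dr]
  have s1 : √(d.r2 z) ≤ 1 := by rw [Real.sqrt_le_one]; exact P.r.le
  exact sq_m (t := √(d.r2 z)) (A := 2 * cQ n cD) (B := cR n cD) (Real.sq_sqrt hr2).symm
    (Real.sqrt_nonneg _) s1 hu hr

/-! ## The functions -/

/-- `d = η² / (1 + m)²`. -/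
def dB (q : Cst) (d : Pk n) (η : ℝ) (z : VV n) : ℝ := η ^ 2 / (1 + d.m q z) ^ 2

/-- `C η² E / (1 + m)³`. -/
def GB (q : Cst) (d : Pk n) (η : ℝ) (z : VV n) : ℝ :=
  16 * n * cAB n * η ^ 2 * (d.E q z / (1 + d.m q z) ^ 3)

/-- `C E (1 + m)`. -/
def MB (q : Cst) (d : Pk n) (z : VV n) : ℝ := 3600 * n * cAB n * (d.E q z * (1 + d.m q z))

/-- `E / (1 + m)`. -/
def hB (q : Cst) (d : Pk n) (z : VV n) : ℝ := d.E q z / (1 + d.m q z)

/-- `E (N + 1 + m)² / (1 + m)`. -/
def wB (q : Cst) (d : Pk n) (z : VV n) : ℝ :=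
  d.E q z * (d.N q z + 1 + d.m q z) ^ 2 / (1 + d.m q z)

/-- The constant. -/
def cH (n : ℕ) : ℝ := 2880 * (16 * n * cAB n) + 5600 * (3600 * n * cAB n) + 32 + 1920 * n

theorem cH_pos : 0 < cH n := by
  have := cAB_nn (n := n)
  unfold cH; positivity

theorem bil_le {a : Fin n → Fin n → ℝ} {c : ℝ} (h : ∀ i j, |a i j| ≤ c) (hc : n * c ≤ 1)
    (ξ η : Fin n → ℝ) :
    (∑ i, ∑ l, a i l * ξ i * η l) ^ 2 ≤ 1 ^ 2 * (∑ i, ξ i ^ 2) * ∑ i, η i ^ 2 := by
  have h1 : |∑ i, ∑ l, a i l * ξ i * η l| ≤ c * ((∑ i, |ξ i|) * ∑ l, |η l|) := by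
    refine (Finset.abs_sum_le_sum_abs _ _).trans ?_
    rw [Finset.sum_mul_sum, Finset.mul_sum]
    refine Finset.sum_le_sum fun i _ => ?_
    refine (Finset.abs_sum_le_sum_abs _ _).trans ?_
    rw [Finset.mul_sum]
    refine Finset.sum_le_sum fun l _ => ?_
    rw [abs_mul, abs_mul, mul_assoc]
    exact mul_le_mul_of_nonneg_right (h i l) (by positivity)
  have h2 : ∀ x : Fin n → ℝ, (∑ i, |x i|) ^ 2 ≤ n * ∑ i, x i ^ 2 := fun x => by
    have := sq_sum_le_card_mul_sum_sq (s := Finset.univ) (f := fun i => |x i|)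
    simpa [sq_abs] using this
  rcases Nat.eq_zero_or_pos n with hn | hn
  · subst hn; simp
  have hc0 : 0 ≤ c := (abs_nonneg _).trans (h ⟨0, hn⟩ ⟨0, hn⟩)
  have h3 := h2 ξ
  have h4 := h2 η
  have x0 : 0 ≤ ∑ i, ξ i ^ 2 := Finset.sum_nonneg fun _ _ => sq_nonneg _
  have y0 : 0 ≤ ∑ i, η i ^ 2 := Finset.sum_nonneg fun _ _ => sq_nonneg _
  calc (∑ i, ∑ l, a i l * ξ i * η l) ^ 2 = |∑ i, ∑ l, a i l * ξ i * η l| ^ 2 := (sq_abs _).symm
    _ ≤ (c * ((∑ i, |ξ i|) * ∑ l, |η l|)) ^ 2 := pow_le_pow_left₀ (abs_nonneg _) h1 2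
    _ = c ^ 2 * ((∑ i, |ξ i|) ^ 2 * (∑ l, |η l|) ^ 2) := by ring
    _ ≤ c ^ 2 * ((n * ∑ i, ξ i ^ 2) * (n * ∑ i, η i ^ 2)) := by
      refine mul_le_mul_of_nonneg_left (mul_le_mul h3 h4 (sq_nonneg _) (by positivity))
        (sq_nonneg _)
    _ = (n * c) ^ 2 * ((∑ i, ξ i ^ 2) * ∑ i, η i ^ 2) := by ring
    _ ≤ 1 ^ 2 * ((∑ i, ξ i ^ 2) * ∑ i, η i ^ 2) := by
      refine mul_le_mul_of_nonneg_right (pow_le_pow_left₀ (by positivity) hc 2) (by positivity)
    _ = _ := by ring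

/-- **The pointwise hypotheses.** -/
theorem hf_pk (Q : Qc n q) (h : PkOk q d) (P : Pz q d z) {ε η : ℝ}
    (hη : cH n * η ^ 2 ≤ ε) :
    HF d.sx d.sy 0 0 (d.W q) (dB q d η) (GB q d η) (MB q d) 0 (hB q d) (wB q d) 1 ε z := by
  have hcA := cAB_nn (n := n)
  have hn : (0 : ℝ) ≤ n := Nat.cast_nonneg n
  have hr2 : 0 ≤ d.r2 z := mul_nonneg zero_le_two ((Q.rq d h).2 z)
  have E1 := P.E1
  have m0 : 0 ≤ d.m q z := mul_nonneg (by linarith) hr2
  have m1 : 0 < 1 + d.m q z := by linarith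
  have m1' : 1 ≤ 1 + d.m q z := by linarith
  have hη2 := sq_nonneg η
  have hd0 : 0 ≤ dB q d η z := by unfold dB; positivity
  have hd1 : dB q d η z ≤ η ^ 2 := by
    unfold dB
    exact div_le_self hη2 (one_le_pow₀ m1')
  have hG0 : 0 ≤ GB q d η z := by unfold GB; positivity
  have hcH : 32 ≤ cH n := by
    have : 0 ≤ 2880 * (16 * n * cAB n) + 5600 * (3600 * n * cAB n) + 1920 * (n : ℝ) := by
      positivity
    unfold cH; linarith
  have hε0 : 0 ≤ ε := le_trans (mul_nonneg (by linarith) hη2) hη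
  have hm1 : (1 + d.m q z) ≠ 0 := m1.ne'
  -- the derivative of `d`
  have hdm : DifferentiableAt ℝ (d.m q) z := by
    have hcd := Q.cd.cd h P.r P.u0
    have du : DifferentiableAt ℝ (d.u q) z := (hcd.ju1 cD_nn).sm.differentiableAt (by norm_num)
    have dr : DifferentiableAt ℝ d.r2 z :=
      ((contDiff_const.mul (Q.rq d h).1 : ContDiff ℝ ∞ fun z => 2 * rq (gi d.s₁) z).differentiable
        (by simp)) z
    exact du.exp.mul dr
  have x1 : d.m q z / (1 + d.m q z) ≤ 1 := by rw [div_le_one m1]; linarith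
  have g1 : ∀ (j : Fin n) (i l : Fin n), |gK d.sx d.sy (d.sx.s i l) j z| ≤ q.ε := fun j i l => by
    have e1 : d.sx.s i l = fun z => d.s₁ z.1 i l := rfl
    have e2 : DifferentiableAt ℝ (fun x => d.s₁ x i l) z.1 :=
      (h.rg.sm₁ i l).differentiable (by simp) _
    have e3 := Dx_fst (r := fun _ => (1 : ℝ)) (s := d.s₁) e2 j
    have e4 := Dy_fst (r := fun _ => (1 : ℝ)) (s := d.s₂) e2 j
    have e5 : gK d.sx d.sy (d.sx.s i l) j z = pd j (fun x => d.s₁ x i l) z.1 := by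
      rw [gK, e1]
      unfold Pk.sx Pk.sy
      rw [e3, e4]; ring
    rw [e5]
    refine ((CdC.tens_d h z.1 j i l).1).trans ?_
    exact div_le_self Q.cd.ε0.le Q.cd.inf.R1
  have g2 : ∀ (j : Fin n) (i l : Fin n), |gK d.sx d.sy (d.sy.s i l) j z| ≤ q.ε := fun j i l => by
    have e1 : d.sy.s i l = fun z => d.s₂ z.2 i l := rfl
    have e2 : DifferentiableAt ℝ (fun x => d.s₂ x i l) z.2 :=
      (h.rg.sm₂ i l).differentiable (by simp) _
    have e3 := Dx_snd (r := fun _ => (1 : ℝ)) (s := d.s₁) e2 j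
    have e4 := Dy_snd (r := fun _ => (1 : ℝ)) (s := d.s₂) e2 j
    have e5 : gK d.sx d.sy (d.sy.s i l) j z = pd j (fun x => d.s₂ x i l) z.2 := by
      rw [gK, e1]
      unfold Pk.sx Pk.sy
      rw [e3, e4]; ring
    rw [e5]
    refine ((CdC.tens_d h z.2 j i l).2).trans ?_
    exact div_le_self Q.cd.ε0.le Q.cd.inf.R1
  have nε : n * q.ε ≤ 1 := by
    have h1 := Q.cd.ε1
    have h0 := Q.cd.ε0
    have hc : 2 ≤ H222.cI n 2 := H222.two_le_cI n 2
    have h2 : (n : ℝ) ≤ cE n := by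
      have : 0 ≤ n * (2 ^ 2 * H222.cI n 2) * (2 * ((n : ℝ) + 1)) * 2 := by positivity
      unfold cE; linarith
    have := mul_le_mul_of_nonneg_right h2 h0.le
    linarith
  have zer : nK d.sx d.sy (fun z => (0 : VV n → ℝ) z + (0 : VV n → ℝ) z) z = 0 := by
    have e : (fun z => (0 : VV n → ℝ) z + (0 : VV n → ℝ) z) = fun _ => 0 := by
      funext y; simp
    rw [e, nK]
    exact Finset.sum_eq_zero fun j _ => by rw [gK, D_const, D_const]; ring
  exact
    { d0 := hd0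
      g0 := hG0
      m0 := by
        refine (nD_le fun i b => dW2 Q h P i b).trans ?_
        have h1 := P.N2
        have h2 : d.N q z ^ 2 + d.E q z * d.m q z ≤ 2 * (d.E q z * (1 + d.m q z)) := by
          have := mul_nonneg (by linarith : 0 ≤ d.E q z) m0
          nlinarith
        have h3 := mul_le_mul_of_nonneg_left h2 (by positivity : 0 ≤ 1800 * n * cAB n)
        unfold MB
        nlinarith
      v0 := by simp
      dg := by
        have k1 : ∀ i b, fderiv ℝ (dB q d η) z (cv i b) ^ 2 ≤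
            4 * η ^ 4 / (1 + d.m q z) ^ 6 * (2 * cAB n * (d.E q z * d.m q z)) := fun i b => by
          have e : dB q d η = fun y => η ^ 2 / (1 + d.m q y) ^ 2 := rfl
          rw [e, fd_d hdm m1, mul_pow]
          have e2 : (-(2 * η ^ 2) / (1 + d.m q z) ^ 3) ^ 2 = 4 * η ^ 4 / (1 + d.m q z) ^ 6 := by
            rw [div_pow]; ring
          rw [e2]
          exact mul_le_mul_of_nonneg_left (dm2 Q h P i b) (by positivity)
        refine (nD_le k1).trans ?_
        have e3 : GB q d η z * dB q d η z =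
            16 * n * cAB n * η ^ 4 * d.E q z / (1 + d.m q z) ^ 5 := by
          unfold GB dB
          field_simp
        have e4 : 2 * n * (4 * η ^ 4 / (1 + d.m q z) ^ 6 * (2 * cAB n * (d.E q z * d.m q z))) =
            16 * n * cAB n * η ^ 4 * d.E q z / (1 + d.m q z) ^ 5 *
              (d.m q z / (1 + d.m q z)) := by
          field_simp
          ring
        rw [e3, e4]
        exact mul_le_of_le_one_right (by positivity) x1
      ds1 := fun j ξ ζ => bil_le (g1 j) nε ξ ζ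
      ds2 := fun j ξ ζ => bil_le (g2 j) nε ξ ζ
      q1 := by
        rw [Fintype.card_fin]
        have h1 : 1504 * (n : ℝ) ≤ cH n := by
          have : 0 ≤ 2880 * (16 * n * cAB n) + 5600 * (3600 * n * cAB n) := by positivity
          unfold cH; linarith
        have h2 := mul_le_mul h1 hd1 hd0 (by linarith)
        linarith
      q2 := by
        have b1 : GB q d η z ≤ 16 * n * cAB n * η ^ 2 * hB q d z := by
          unfold GB hB
          refine mul_le_mul_of_nonneg_left ?_ (by positivity)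
          exact div_le_div_of_nonneg_left (by linarith) m1 (le_self_pow₀ m1' (by norm_num))
        have b2 : dB q d η z * MB q d z = 3600 * n * cAB n * η ^ 2 * hB q d z := by
          unfold dB MB hB
          field_simp
        have b3 : dB q d η z ≤ η ^ 2 * hB q d z := by
          unfold dB hB
          rw [← mul_div_assoc, div_le_div_iff₀ (by positivity) m1]
          have : 1 ≤ d.E q z * (1 + d.m q z) := one_le_mul_of_one_le_of_one_le E1 m1'
          have := mul_le_mul_of_nonneg_left this (mul_nonneg hη2 m1.le)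
          nlinarith
        have b4 : 0 ≤ hB q d z := by unfold hB; positivity
        have b5 := mul_le_mul_of_nonneg_right hη b4
        have b6 : 0 ≤ η ^ 2 * hB q d z * n := by positivity
        rw [b2]
        show _ + _ + 16 * (dB q d η z * (3 * (0 : ℝ) + 2)) ≤ _
        unfold cH at b5
        nlinarith
      q3 := by
        rw [Fintype.card_fin]
        have h1 : 416 * (n : ℝ) * 1 ^ 2 ≤ cH n := by
          have : 0 ≤ 2880 * (16 * n * cAB n) + 5600 * (3600 * n * cAB n) := by positivity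
          unfold cH; linarith
        have h2 := mul_le_mul h1 hd1 hd0 (by linarith)
        linarith
      q4 := by
        rw [zer, mul_zero, mul_zero]
        unfold wB
        positivity }

/-! ## The conditions on the constants -/

theorem evQc (n : ℕ) : EvC (Qc n) := by
  have h1 : EvC fun q => 0 < q.c' → 1 ≤ (q.r₁ * Real.exp (-1)) ^ 2 := by
    have : EvC fun q => 0 < q.c' → 1 ≤ (q.c' * q.M₀ / 2 * Real.exp (-1)) ^ 2 :=
      EvC.at_M₀ (fun q t => 0 < q.c' → 1 ≤ (q.c' * t / 2 * Real.exp (-1)) ^ 2) fun q => by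
        by_cases hc : 0 < q.c'
        · filter_upwards [eventually_ge_atTop (2 * Real.exp 1 / q.c')] with t ht _
          have h2 : 1 ≤ q.c' * t / 2 * Real.exp (-1) := by
            rw [div_le_iff₀ hc] at ht
            have h3 : Real.exp 1 ≤ q.c' * t / 2 := by linarith
            have h4 := mul_le_mul_of_nonneg_right h3 (Real.exp_pos (-1)).le
            rwa [← Real.exp_add, add_neg_cancel, Real.exp_zero] at h4
          exact one_le_pow₀ h2
        · exact Eventually.of_forall fun _ h => absurd h hc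
    exact this
  refine (((evCd n).and h1).and ((EvC.rq n).and EvC.pos)).mono ?_
  rintro q ⟨⟨a, b⟩, c, e⟩
  exact
    { cd := a
      e0 := e.1.2.1
      rd := b e.2.1.2.2.1
      rq := fun d h => ⟨(c d h).1, fun z => ((c d h).2 z).1⟩ }

end Vale.Agent.P088.R2.H856.O
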